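import Vale.Agent.P038.Defs

/-!
# Closed neighbourhoods and the condition (G)
-/

namespace Vale.Agent.P038.H750

open Finset

variable {V : Type*} [Fintype V] [DecidableEq V]

/-- Closed out-neighbourhood of a set of vertices. -/
def cl (O : V → Finset V) (S : Finset V) : Finset V := S ∪ S.biUnion O

theorem mem_cl {O : V → Finset V} {S : Finset V} {x : V} :
    x ∈ cl O S ↔ ∃ s ∈ S, x = s ∨ x ∈ O s := by
  simp only [cl, mem_union, mem_biUnion]
  constructor
  · rintro (h | ⟨s, hs, hx⟩)
    · exact ⟨x, h, Or.inl rfl⟩
    · exact ⟨s, hs, Or.inr hx⟩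
  · rintro ⟨s, hs, rfl | hx⟩
    · exact Or.inl hs
    · exact Or.inr ⟨s, hs, hx⟩

theorem subset_cl (O : V → Finset V) (S : Finset V) : S ⊆ cl O S := fun x hx =>
  mem_cl.2 ⟨x, hx, Or.inl rfl⟩

theorem cl_mono {O : V → Finset V} {S T : Finset V} (h : S ⊆ T) : cl O S ⊆ cl O T := by
  intro x hx
  obtain ⟨s, hs, h1⟩ := mem_cl.1 hx
  exact mem_cl.2 ⟨s, h hs, h1⟩

theorem cl_union (O : V → Finset V) (S T : Finset V) : cl O (S ∪ T) = cl O S ∪ cl O T := by
  ext x
  simp only [mem_cl, mem_union]
  constructor
  · rintro ⟨s, hs | hs, h⟩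
    · exact Or.inl ⟨s, hs, h⟩
    · exact Or.inr ⟨s, hs, h⟩
  · rintro (⟨s, hs, h⟩ | ⟨s, hs, h⟩)
    · exact ⟨s, Or.inl hs, h⟩
    · exact ⟨s, Or.inr hs, h⟩

theorem cl_empty (O : V → Finset V) : cl O ∅ = ∅ := by
  ext x; simp [mem_cl]

/-- A counterexample. -/
structure CE (O : V → Finset V) : Prop where
  irr : ∀ v, v ∉ O v
  asy : ∀ u v, u ∈ O v → v ∉ O u
  big : ∀ v, (cl O (O v) \ O v).card < (O v).card

/-- The condition (G) for an arc-minimal counterexample. -/
theorem cond_G (O : V → Finset V) (h : CE O)
    (hmin : ∀ O' : V → Finset V, CE O' → (∀ v, O' v ⊆ O v) → ∀ v, O' v = O v)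
    (X : Finset V) (hX : cl O X ≠ X) : (cl O (cl O X)).card + X.card < 2 * (cl O X).card := by
  by_contra hfail
  push Not at hfail
  set L : Finset V := cl O X \ X with hL
  have hXsub : X ⊆ cl O X := subset_cl O X
  have hLne : L.Nonempty := by
    rw [Finset.nonempty_iff_ne_empty]
    intro he
    apply hX
    exact Finset.Subset.antisymm (Finset.sdiff_eq_empty_iff_subset.1 he) hXsub
  have hLX : Disjoint X L := Finset.disjoint_sdiff
  -- d
  let d : Finset V → ℤ := fun T => ((cl O T \ X).card : ℤ) - 2 * T.card
  have hne : (L.powerset.erase L).Nonempty := by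
    refine ⟨∅, ?_⟩
    rw [mem_erase]
    exact ⟨fun h0 => by rw [← h0] at hLne; exact Finset.not_nonempty_empty hLne,
      Finset.empty_mem_powerset _⟩
  obtain ⟨T, hT, hTmin⟩ := Finset.exists_min_image (L.powerset.erase L) d hne
  rw [mem_erase, mem_powerset] at hT
  obtain ⟨hTne, hTL⟩ := hT
  have hd0 : d T ≤ 0 := by
    have := hTmin ∅ (by
      rw [mem_erase]
      exact ⟨fun h0 => by rw [← h0] at hLne; exact Finset.not_nonempty_empty hLne,
        Finset.empty_mem_powerset _⟩)
    simpa [d, cl_empty] using this
  have hdL : 0 ≤ d L := by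
    have e1 : (cl O X).card = X.card + L.card := by
      rw [hL, Finset.card_sdiff_of_subset hXsub]
      have := Finset.card_le_card hXsub
      omega
    have e2 : cl O (cl O X) = X ∪ (cl O L \ X) := by
      have e3 : cl O X = X ∪ L := by
        rw [hL, Finset.union_sdiff_of_subset hXsub]
      ext x
      constructor
      · intro hx
        rw [e3, cl_union, mem_union] at hx
        by_cases hxX : x ∈ X
        · exact mem_union_left _ hxX
        · apply mem_union_right
          rw [mem_sdiff]
          refine ⟨?_, hxX⟩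
          rcases hx with hx | hx
          · apply subset_cl
            rw [hL, mem_sdiff]
            exact ⟨hx, hxX⟩
          · exact hx
      · intro hx
        rw [mem_union, mem_sdiff] at hx
        rcases hx with hx | hx
        · exact subset_cl _ _ (hXsub hx)
        · exact cl_mono (by rw [hL]; exact Finset.sdiff_subset) hx.1
    have e4 : (cl O (cl O X)).card = X.card + (cl O L \ X).card := by
      rw [e2, Finset.card_union_of_disjoint Finset.disjoint_sdiff]
    simp only [d]
    have : 2 * L.card ≤ (cl O L \ X).card := by omega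
    have : (2 * L.card : ℤ) ≤ ((cl O L \ X).card : ℤ) := by exact_mod_cast this
    linarith
  have key : ∀ D' : Finset V, D' ⊆ L → Disjoint D' T →
      2 * D'.card ≤ (cl O D' \ (cl O T ∪ X)).card := by
    intro D' hD' hdis
    have hle : d T ≤ d (T ∪ D') := by
      by_cases hL' : T ∪ D' = L
      · rw [hL']; linarith
      · apply hTmin
        rw [mem_erase, mem_powerset]
        exact ⟨hL', Finset.union_subset hTL hD'⟩
    simp only [d] at hle
    have e1 : (T ∪ D').card = T.card + D'.card := Finset.card_union_of_disjoint hdis.symm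
    have e2 : cl O (T ∪ D') \ X = (cl O T \ X) ∪ (cl O D' \ (cl O T ∪ X)) := by
      rw [cl_union]
      ext x
      simp only [mem_sdiff, mem_union]
      tauto
    have e3 : (cl O (T ∪ D') \ X).card = (cl O T \ X).card + (cl O D' \ (cl O T ∪ X)).card := by
      rw [e2, Finset.card_union_of_disjoint]
      rw [Finset.disjoint_left]
      intro x hx hx'
      simp only [mem_sdiff, mem_union] at hx hx'
      tauto
    rw [e3, e1] at hle
    push_cast at hle
    have : (2 * D'.card : ℤ) ≤ ((cl O D' \ (cl O T ∪ X)).card : ℤ) := by linarith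
    exact_mod_cast this
  -- the smaller digraph
  let O' : V → Finset V := fun y => if y ∈ X then O y ∩ (X ∪ T) else O y
  have hO'sub : ∀ v, O' v ⊆ O v := by
    intro v
    simp only [O']
    split
    · exact Finset.inter_subset_left
    · exact Finset.Subset.refl _
  have hCE : CE O' := by
    refine ⟨fun v hv => h.irr v (hO'sub v hv), fun u v hu hv => h.asy u v (hO'sub v hu) (hO'sub u hv),
      ?_⟩
    intro v
    by_cases hv : v ∈ X
    · have hR : O' v = O v ∩ (X ∪ T) := by simp [O', hv]
      set R := O v ∩ (X ∪ T) with hRdef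
      set Dv := O v \ (X ∪ T) with hDv
      set E := cl O Dv \ (cl O T ∪ X) with hE
      have hcardO : (O v).card = R.card + Dv.card := by
        rw [hRdef, hDv]
        exact (Finset.card_inter_add_card_sdiff (O v) (X ∪ T)).symm
      have hDvL : Dv ⊆ L := by
        intro x hx
        rw [hDv, mem_sdiff, mem_union] at hx
        rw [hL, mem_sdiff]
        exact ⟨mem_cl.2 ⟨v, hv, Or.inr hx.1⟩, fun hxX => hx.2 (Or.inl hxX)⟩
      have hDvT : Disjoint Dv T := by
        rw [Finset.disjoint_left]
        intro x hx hxT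
        rw [hDv, mem_sdiff, mem_union] at hx
        exact hx.2 (Or.inr hxT)
      have hk : 2 * Dv.card ≤ E.card := key Dv hDvL hDvT
      have hEsub : E ⊆ (cl O (O v) \ O v) ∪ Dv := by
        intro z hz
        rw [hE, mem_sdiff, mem_union, mem_cl] at hz
        obtain ⟨⟨c, hc, hzc⟩, hz2⟩ := hz
        rcases hzc with rfl | hzc
        · exact mem_union_right _ hc
        · have hcO : c ∈ O v := by
            rw [hDv, mem_sdiff] at hc
            exact hc.1
          by_cases hzO : z ∈ O v
          · apply mem_union_right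
            rw [hDv, mem_sdiff, mem_union]
            refine ⟨hzO, ?_⟩
            rintro (h1 | h1)
            · exact hz2 (Or.inr h1)
            · exact hz2 (Or.inl (subset_cl _ _ h1))
          · apply mem_union_left
            rw [mem_sdiff]
            exact ⟨mem_cl.2 ⟨c, hcO, Or.inr hzc⟩, hzO⟩
      have hsub : cl O' R \ R ⊆ ((cl O (O v) \ O v) ∪ Dv) \ E := by
        intro z hz
        rw [mem_sdiff, mem_cl] at hz
        obtain ⟨⟨c, hc, hzc⟩, hzR⟩ := hz
        rcases hzc with rfl | hzc
        · exact absurd hc hzR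
        have hcR := hc
        rw [hRdef, mem_inter, mem_union] at hc
        have hzO' : z ∈ O c := hO'sub c hzc
        rw [mem_sdiff]
        constructor
        · by_cases hzO : z ∈ O v
          · apply mem_union_right
            rw [hDv, mem_sdiff]
            refine ⟨hzO, fun h1 => hzR ?_⟩
            rw [hRdef, mem_inter]
            exact ⟨hzO, h1⟩
          · apply mem_union_left
            rw [mem_sdiff]
            exact ⟨mem_cl.2 ⟨c, hc.1, Or.inr hzO'⟩, hzO⟩
        · intro hzE
          rw [hE, mem_sdiff, mem_union] at hzE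
          by_cases hcX : c ∈ X
          · have : O' c = O c ∩ (X ∪ T) := by simp [O', hcX]
            rw [this, mem_inter, mem_union] at hzc
            rcases hzc.2 with h1 | h1
            · exact hzE.2 (Or.inr h1)
            · exact hzE.2 (Or.inl (subset_cl _ _ h1))
          · have hcT : c ∈ T := by tauto
            exact hzE.2 (Or.inl (mem_cl.2 ⟨c, hcT, Or.inr hzO'⟩))
      have hc1 := Finset.card_le_card hsub
      rw [Finset.card_sdiff_of_subset hEsub] at hc1
      have hc2 : ((cl O (O v) \ O v) ∪ Dv).card ≤ (cl O (O v) \ O v).card + Dv.card :=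
        Finset.card_union_le _ _
      have hc3 := Finset.card_le_card hEsub
      have hb := h.big v
      rw [hR]
      omega
    · have hR : O' v = O v := by simp [O', hv]
      rw [hR]
      refine lt_of_le_of_lt (Finset.card_le_card ?_) (h.big v)
      intro z hz
      rw [mem_sdiff, mem_cl] at hz ⊢
      obtain ⟨⟨c, hc, hzc⟩, h2⟩ := hz
      refine ⟨⟨c, hc, ?_⟩, h2⟩
      rcases hzc with h1 | h1
      · exact Or.inl h1
      · exact Or.inr (hO'sub c h1)
  have hEq := hmin O' hCE hO'sub
  apply hTne
  apply Finset.Subset.antisymm hTL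
  intro l hl
  by_contra hlT
  have hl' := hl
  rw [hL, mem_sdiff, mem_cl] at hl'
  obtain ⟨⟨y, hy, hly⟩, hlX⟩ := hl'
  rcases hly with rfl | hly
  · exact hlX hy
  · have := hEq y
    have h2 : O' y = O y ∩ (X ∪ T) := by simp [O', hy]
    rw [h2] at this
    rw [← this, mem_inter, mem_union] at hly
    tauto

/-- (G) in the weak form, for all sets. -/
theorem cond_G' (O : V → Finset V) (h : CE O)
    (hmin : ∀ O' : V → Finset V, CE O' → (∀ v, O' v ⊆ O v) → ∀ v, O' v = O v)
    (X : Finset V) : (cl O (cl O X)).card + X.card ≤ 2 * (cl O X).card := by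
  by_cases hX : cl O X = X
  · rw [hX, hX]; omega
  · exact (cond_G O h hmin X hX).le

end Vale.Agent.P038.H750
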