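import Vale.Agent.P038.H750.Hall

/-!
# The shift inequality at an optimal pair
-/

namespace Vale.Agent.P038.H750

open Finset

variable {V : Type*} [Fintype V] [DecidableEq V]

/-- Lexicographic minimiser. -/
theorem exists_lex_min (G : Finset V) (f : Finset V → ℤ) :
    ∃ S ⊆ G, (∀ S' ⊆ G, f S ≤ f S') ∧ ∀ S' ⊆ G, S.card < S'.card → f S < f S' := by
  obtain ⟨S1, hS1, h1⟩ := Finset.exists_min_image G.powerset f ⟨∅, Finset.empty_mem_powerset _⟩
  obtain ⟨S, hS, h2⟩ := Finset.exists_max_image (G.powerset.filter fun S => f S = f S1)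
    (fun S => S.card) ⟨S1, mem_filter.2 ⟨hS1, rfl⟩⟩
  rw [mem_filter, mem_powerset] at hS
  refine ⟨S, hS.1, ?_, ?_⟩
  · intro S' hS'
    rw [hS.2]
    exact h1 S' (mem_powerset.2 hS')
  · intro S' hS' hlt
    have h3 := h1 S' (mem_powerset.2 hS')
    rcases lt_or_eq_of_le h3 with h4 | h4
    · rw [hS.2]; exact h4
    · have := h2 S' (mem_filter.2 ⟨mem_powerset.2 hS', h4.symm⟩)
      omega

section

variable {O : V → Finset V} {B U : V → Finset V}

/-- Hall condition for the row `a` of `AU \ AB`. -/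
theorem rowHall2 (hF : Feas O B U)
    (hmin : ∀ B' U', Feas O B' U' → cost O B U ≤ cost O B' U') (a : V) :
    ∀ n : ℕ, ∀ S : Finset V, S.card ≤ n → S ⊆ ero O U a \ ero O B a →
      S.card ≤ (cl O S \ ero O (fun z => cl O (B z)) a).card := by
  intro n
  induction n with
  | zero =>
    intro S hS _
    omega
  | succ n ih =>
    intro S hSn hS
    rcases S.eq_empty_or_nonempty with he | ⟨x0, hx0⟩
    · rw [he]; simp
    have hx := hS hx0
    rw [mem_sdiff, mem_ero, mem_ero] at hx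
    obtain ⟨hxU, hxB⟩ := hx
    push Not at hxB
    obtain ⟨z, hz, hzB⟩ := hxB
    -- S1 = S ∩ (U z \ B z)
    let S1 := S ∩ (U z \ B z)
    let S2 := S \ (U z \ B z)
    have hx01 : x0 ∈ S1 := mem_inter.2 ⟨hx0, mem_sdiff.2 ⟨hxU z hz, hzB⟩⟩
    have hcard : S.card = S1.card + S2.card := (Finset.card_inter_add_card_sdiff S _).symm
    have hpos : 0 < S1.card := Finset.card_pos.2 ⟨x0, hx01⟩
    have h1 := rowHall hF hmin z S1 inter_subset_right
    have hS2 : S2 ⊆ S := sdiff_subset
    have h2 := ih S2 (by omega) (hS2.trans hS)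
    have hdis : Disjoint (cl O S1 \ cl O (B z)) (cl O S2 \ ero O (fun z => cl O (B z)) a) := by
      rw [Finset.disjoint_left]
      intro x hxa hxb
      rw [mem_sdiff] at hxa hxb
      apply hxa.2
      obtain ⟨s, hs, hxs⟩ := mem_cl.1 hxb.1
      have hs' := mem_sdiff.1 hs
      have hsU : s ∈ U z := by
        have := hS hs'.1
        rw [mem_sdiff, mem_ero] at this
        exact this.1 z hz
      have hsB : s ∈ B z := by
        by_contra hc
        exact hs'.2 (mem_sdiff.2 ⟨hsU, hc⟩)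
      exact mem_cl.2 ⟨s, hsB, hxs⟩
    have hsub : (cl O S1 \ cl O (B z)) ∪ (cl O S2 \ ero O (fun z => cl O (B z)) a) ⊆
        cl O S \ ero O (fun z => cl O (B z)) a := by
      apply Finset.union_subset
      · intro x hxa
        rw [mem_sdiff] at hxa ⊢
        refine ⟨cl_mono inter_subset_left hxa.1, fun h => hxa.2 ?_⟩
        rw [mem_ero] at h
        exact h z hz
      · exact Finset.sdiff_subset_sdiff (cl_mono hS2) (Finset.Subset.refl _)
    have h3 := Finset.card_le_card hsub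
    rw [Finset.card_union_of_disjoint hdis] at h3
    omega

/-- Closure: (K). -/
theorem closeK {a z x x' : V} (hz : a = z ∨ a ∈ O z) (hx : x ∈ ero O U a)
    (hx' : x' = x ∨ x' ∈ O x) (hn : x' ∉ cl O (B z)) :
    (x ∈ U z ∧ x ∉ B z) ∧ x ∈ ero O U a \ ero O B a ∧
      x' ∈ cl O (ero O U a \ ero O B a) \ ero O (fun z => cl O (B z)) a := by
  have hxU : x ∈ U z := (mem_ero.1 hx) z hz
  have hxB : x ∉ B z := fun h => hn (mem_cl.2 ⟨x, h, hx'⟩)
  have hP : x ∈ ero O U a \ ero O B a := mem_sdiff.2 ⟨hx, fun h => hxB ((mem_ero.1 h) z hz)⟩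
  exact ⟨⟨hxU, hxB⟩, hP, mem_sdiff.2 ⟨mem_cl.2 ⟨x, hP, hx'⟩, fun h => hn ((mem_ero.1 h) z hz)⟩⟩

/-- Hall condition for the column `x'` of `EU \ EB`. -/
theorem colHall2 (hF : Feas O B U)
    (hmin : ∀ B' U', Feas O B' U' → cost O B U ≤ cost O B' U') (x' : V) :
    ∀ n : ℕ, ∀ T : Finset V, T.card ≤ n → (∀ z ∈ T, x' ∈ cl O (U z \ B z) \ cl O (B z)) →
      T.card ≤ ((cl O T).filter fun a =>
        x' ∈ cl O (ero O U a \ ero O B a) \ ero O (fun z => cl O (B z)) a).card := by
  intro n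
  induction n with
  | zero =>
    intro T hT _
    omega
  | succ n ih =>
    intro T hTn hT
    rcases T.eq_empty_or_nonempty with he | ⟨z0, hz0⟩
    · rw [he]; simp
    have hz := hT z0 hz0
    rw [mem_sdiff, mem_cl] at hz
    obtain ⟨⟨x, hxG, hx'⟩, hn0⟩ := hz
    let T1 := T.filter fun z => x ∈ U z \ B z
    let T2 := T.filter fun z => ¬ x ∈ U z \ B z
    have hz01 : z0 ∈ T1 := mem_filter.2 ⟨hz0, hxG⟩
    have hcard : T.card = T1.card + T2.card :=
      (Finset.card_filter_add_card_filter_not (s := T) (fun z => x ∈ U z \ B z)).symm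
    have hpos : 0 < T1.card := Finset.card_pos.2 ⟨z0, hz01⟩
    have h1 := colHall hF hmin x T1 (fun z hz => by
      have := (mem_filter.1 hz).2
      exact mem_sdiff.1 this)
    have hT2 : T2 ⊆ T := filter_subset _ _
    have hT1 : T1 ⊆ T := filter_subset _ _
    have h2 := ih T2 (by omega) (fun z hz => hT z (hT2 hz))
    have hdis : Disjoint ((cl O T1).filter fun a => x ∈ ero O U a) ((cl O T2).filter fun a =>
        x' ∈ cl O (ero O U a \ ero O B a) \ ero O (fun z => cl O (B z)) a) := by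
      rw [Finset.disjoint_left]
      intro a ha hb
      rw [mem_filter] at ha hb
      obtain ⟨z2, hz2, haz2⟩ := mem_cl.1 hb.1
      have hz2' := mem_filter.1 hz2
      apply hz2'.2
      have hn2 := (mem_sdiff.1 (hT z2 hz2'.1)).2
      have := (closeK (O := O) (B := B) (U := U) haz2 ha.2 hx' hn2).1
      exact mem_sdiff.2 this
    have hsub : ((cl O T1).filter fun a => x ∈ ero O U a) ∪ ((cl O T2).filter fun a =>
        x' ∈ cl O (ero O U a \ ero O B a) \ ero O (fun z => cl O (B z)) a) ⊆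
        (cl O T).filter fun a =>
          x' ∈ cl O (ero O U a \ ero O B a) \ ero O (fun z => cl O (B z)) a := by
      apply Finset.union_subset
      · intro a ha
        rw [mem_filter] at ha ⊢
        refine ⟨cl_mono hT1 ha.1, ?_⟩
        obtain ⟨z1, hz1, haz1⟩ := mem_cl.1 ha.1
        have hz1' := mem_filter.1 hz1
        have hn1 := (mem_sdiff.1 (hT z1 hz1'.1)).2
        exact (closeK (O := O) (B := B) (U := U) haz1 ha.2 hx' hn1).2.2
      · intro a ha
        rw [mem_filter] at ha ⊢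
        exact ⟨cl_mono hT2 ha.1, ha.2⟩
    have h3 := Finset.card_le_card hsub
    rw [Finset.card_union_of_disjoint hdis] at h3
    omega

/-- Monotonicity of the levels. -/
theorem level_mono {M k : ℤ} (hk : 0 ≤ k) {a z : V} (hz : a = z ∨ a ∈ O z)
    {S T : Finset V} (hS : S ⊆ ero O U a \ ero O B a)
    (hSmin : ∀ S' ⊆ ero O U a \ ero O B a,
      k * ((cl O S \ ero O (fun z => cl O (B z)) a).card : ℤ) - M * S.card ≤
      k * ((cl O S' \ ero O (fun z => cl O (B z)) a).card : ℤ) - M * S'.card)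
    (hT : T ⊆ U z \ B z)
    (hTmax : ∀ T' ⊆ U z \ B z, T.card < T'.card →
      k * ((cl O T \ cl O (B z)).card : ℤ) - M * T.card <
      k * ((cl O T' \ cl O (B z)).card : ℤ) - M * T'.card)
    {x' : V} (hx' : x' ∈ cl O S \ ero O (fun z => cl O (B z)) a) (hn : x' ∉ cl O (B z)) :
    x' ∈ cl O T \ cl O (B z) := by
  -- Q = (S ∩ G z) \ T
  set Q : Finset V := (S ∩ (U z \ B z)) \ T with hQ
  have hQe : Q = ∅ := by
    by_contra hne
    have hQne : 0 < Q.card := Finset.card_pos.2 (Finset.nonempty_iff_ne_empty.2 hne)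
    have hdTQ : Disjoint T Q := by rw [hQ]; exact Finset.disjoint_sdiff
    have hcTQ : (T ∪ Q).card = T.card + Q.card := Finset.card_union_of_disjoint hdTQ
    have hQG : Q ⊆ U z \ B z := by
      rw [hQ]; exact sdiff_subset.trans inter_subset_right
    have hQS : Q ⊆ S := by
      rw [hQ]; exact sdiff_subset.trans inter_subset_left
    have h1 := hTmax (T ∪ Q) (Finset.union_subset hT hQG) (by omega)
    have h2 := hSmin (S \ Q) (sdiff_subset.trans hS)
    have e1 : cl O (T ∪ Q) \ cl O (B z) =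
        (cl O T \ cl O (B z)) ∪ ((cl O Q \ cl O (B z)) \ (cl O T \ cl O (B z))) := by
      rw [cl_union]
      ext x
      simp only [mem_sdiff, mem_union]
      tauto
    have e2 : (cl O (T ∪ Q) \ cl O (B z)).card = (cl O T \ cl O (B z)).card +
        ((cl O Q \ cl O (B z)) \ (cl O T \ cl O (B z))).card := by
      rw [e1, Finset.card_union_of_disjoint Finset.disjoint_sdiff]
    have hmon : cl O (S \ Q) \ ero O (fun z => cl O (B z)) a ⊆
        cl O S \ ero O (fun z => cl O (B z)) a :=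
      Finset.sdiff_subset_sdiff (cl_mono sdiff_subset) (Finset.Subset.refl _)
    have hincl : (cl O Q \ cl O (B z)) \ (cl O T \ cl O (B z)) ⊆
        (cl O S \ ero O (fun z => cl O (B z)) a) \
          (cl O (S \ Q) \ ero O (fun z => cl O (B z)) a) := by
      intro y hy
      rw [mem_sdiff, mem_sdiff] at hy
      obtain ⟨⟨hyQ, hyB⟩, hyT⟩ := hy
      rw [mem_sdiff, mem_sdiff]
      refine ⟨⟨cl_mono hQS hyQ, fun h => hyB ((mem_ero.1 h) z hz)⟩, ?_⟩
      intro hc
      obtain ⟨s, hs, hys⟩ := mem_cl.1 (mem_sdiff.1 hc).1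
      have hs' := mem_sdiff.1 hs
      have hsP := hS hs'.1
      have hsU : s ∈ U z := (mem_ero.1 (mem_sdiff.1 hsP).1) z hz
      have hsB : s ∉ B z := fun h => hyB (mem_cl.2 ⟨s, h, hys⟩)
      have hsT : s ∈ T := by
        by_contra hsT
        apply hs'.2
        rw [hQ, mem_sdiff, mem_inter]
        exact ⟨⟨hs'.1, mem_sdiff.2 ⟨hsU, hsB⟩⟩, hsT⟩
      exact hyT (mem_sdiff.2 ⟨mem_cl.2 ⟨s, hsT, hys⟩, hyB⟩)
    have h3 := Finset.card_le_card hincl
    rw [Finset.card_sdiff_of_subset hmon] at h3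
    have h4 := Finset.card_le_card hmon
    have h5 : (S \ Q).card = S.card - Q.card := Finset.card_sdiff_of_subset hQS
    have h6 := Finset.card_le_card hQS
    have h3' : (((cl O Q \ cl O (B z)) \ (cl O T \ cl O (B z))).card : ℤ) ≤
        ((cl O S \ ero O (fun z => cl O (B z)) a).card : ℤ) -
          ((cl O (S \ Q) \ ero O (fun z => cl O (B z)) a).card : ℤ) := by
      omega
    have h5' : ((S \ Q).card : ℤ) = S.card - Q.card := by omega
    rw [e2, hcTQ] at h1
    rw [h5'] at h2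
    push_cast at h1
    have h7 := mul_le_mul_of_nonneg_left h3' hk
    nlinarith
  -- conclusion
  rw [mem_sdiff] at hx' ⊢
  refine ⟨?_, hn⟩
  obtain ⟨s, hs, hxs⟩ := mem_cl.1 hx'.1
  have hsP := hS hs
  have hsU : s ∈ U z := (mem_ero.1 (mem_sdiff.1 hsP).1) z hz
  have hsB : s ∉ B z := fun h => hn (mem_cl.2 ⟨s, h, hxs⟩)
  have hsT : s ∈ T := by
    by_contra hsT
    have : s ∈ Q := by
      rw [hQ, mem_sdiff, mem_inter]
      exact ⟨⟨hs, mem_sdiff.2 ⟨hsU, hsB⟩⟩, hsT⟩
    rw [hQe] at this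
    exact Finset.notMem_empty _ this
  exact mem_cl.2 ⟨s, hsT, hxs⟩

end

end Vale.Agent.P038.H750
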