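import Vale.Agent.P038.H750.Shift

/-!
# Seymour's second neighbourhood conjecture
-/

namespace Vale.Agent.P038.H750

open Finset

variable {V : Type*} [Fintype V] [DecidableEq V]

theorem card_aux {Y Z : Finset V} {a : V} (hY : a ∈ Y) (hZ : a ∉ Z) (h : Y.erase a ⊆ Z) :
    (Z.card : ℤ) + 1 = Y.card + (Z \ Y).card := by
  have e : Z \ Y = Z \ (Y.erase a) := by
    ext x
    simp only [mem_sdiff, mem_erase]
    constructor
    · rintro ⟨h1, h2⟩
      exact ⟨h1, fun h3 => h2 h3.2⟩
    · rintro ⟨h1, h2⟩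
      refine ⟨h1, fun h3 => h2 ⟨?_, h3⟩⟩
      rintro rfl
      exact hZ h1
  have h1 := Finset.card_sdiff_of_subset h
  have h2 := Finset.card_le_card h
  have h3 := Finset.card_erase_of_mem hY
  have h4 : 0 < Y.card := Finset.card_pos.2 ⟨a, hY⟩
  rw [e]
  omega

section

variable {O : V → Finset V} {B U : V → Finset V}

theorem Feas.notMem_cl (hF : Feas O B U) (a : V) : a ∉ cl O (U a) := by
  intro h
  obtain ⟨s, hs, h1⟩ := mem_cl.1 h
  exact hF.rev a s hs h1

theorem Feas.cl_sub (hF : Feas O B U) (a : V) : (cl O (B a)).erase a ⊆ cl O (U a) := by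
  intro y hy
  rw [mem_erase] at hy
  obtain ⟨s, hs, h1⟩ := mem_cl.1 hy.2
  by_cases hsa : s = a
  · subst hsa
    rcases h1 with h1 | h1
    · exact absurd h1 hy.1
    · exact subset_cl _ _ (hF.sub _ _ (hF.nb _ _ (Or.inr h1)) hy.1)
  · exact mem_cl.2 ⟨s, hF.sub _ _ hs hsa, h1⟩

theorem Feas.self_ero (hF : Feas O B U) (a : V) : a ∈ ero O B a :=
  mem_ero.2 fun z hz => hF.nb z a hz

theorem Feas.notMem_ero (hF : Feas O B U) (a : V) : a ∉ ero O U a := by
  intro h
  exact hF.rev a a ((mem_ero.1 h) a (Or.inl rfl)) (Or.inl rfl)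

theorem Feas.ero_sub (hF : Feas O B U) (a : V) : (ero O B a).erase a ⊆ ero O U a := by
  intro x hx
  rw [mem_erase, mem_ero] at hx
  rw [mem_ero]
  intro z hz
  have hxU : x ∈ U a := hF.sub a x (hx.2 a (Or.inl rfl)) hx.1
  refine hF.sub z x (hx.2 z hz) ?_
  rintro rfl
  exact hF.rev a x hxU hz

/-- The shifted pair is feasible. -/
theorem Feas.shift (hF : Feas O B U) :
    Feas O (fun a => cl O (ero O B a)) (ero O fun a => cl O (U a)) := by
  refine ⟨?_, ?_, ?_⟩
  · intro a x hx
    exact mem_cl.2 ⟨a, hF.self_ero a, hx⟩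
  · intro a b hb hab
    exact hF.notMem_cl b ((mem_ero.1 hb) b hab)
  · intro a x hx hxa
    rw [mem_ero]
    intro z hz
    obtain ⟨s, hs, hxs⟩ := mem_cl.1 hx
    rw [mem_ero] at hs
    have hxB : x ∈ cl O (B z) := mem_cl.2 ⟨s, hs z hz, hxs⟩
    by_cases hxz : x = z
    · exfalso
      subst hxz
      by_cases hsx : s = x
      · subst hsx
        have : s ∈ U a := hF.sub a s (hs a (Or.inl rfl)) hxa
        exact hF.rev a s this hz
      · have : s ∈ U x := hF.sub x s (hs x hz) hsx
        exact hF.rev x s this hxs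
    · exact hF.cl_sub z (mem_erase.2 ⟨hxz, hxB⟩)

/-- The shift inequality. -/
theorem cost_shift (hF : Feas O B U)
    (hmin : ∀ B' U', Feas O B' U' → cost O B U ≤ cost O B' U') :
    cost O (ero O B) (fun a => cl O (U a)) ≤ cost O B U := by
  have hS := shift_ineq hF hmin
  have h1 : ∀ a, ((cl O (U a)).card : ℤ) + 1 = (cl O (B a)).card +
      (cl O (U a) \ cl O (B a)).card := fun a =>
    card_aux (subset_cl _ _ (hF.nb a a (Or.inl rfl))) (hF.notMem_cl a) (hF.cl_sub a)
  have h2 : ∀ a, ((U a).card : ℤ) + 1 = (B a).card + (U a \ B a).card := fun a =>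
    card_aux (hF.nb a a (Or.inl rfl)) (fun h => hF.rev a a h (Or.inl rfl))
      (fun x hx => hF.sub a x (mem_of_mem_erase hx) (ne_of_mem_erase hx))
  have h3 : ∀ a, ((ero O U a).card : ℤ) + 1 = (ero O B a).card +
      (ero O U a \ ero O B a).card := fun a =>
    card_aux (hF.self_ero a) (hF.notMem_ero a) (hF.ero_sub a)
  have hF2 := hF.shift
  have h4 : ∀ a, ((ero O (fun a => cl O (U a)) a).card : ℤ) + 1 = (cl O (ero O B a)).card +
      (ero O (fun a => cl O (U a)) a \ cl O (ero O B a)).card := fun a =>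
    card_aux (hF2.nb a a (Or.inl rfl)) (fun h => hF2.rev a a h (Or.inl rfl))
      (fun x hx => hF2.sub a x (mem_of_mem_erase hx) (ne_of_mem_erase hx))
  have h5 : ∀ a, ((cl O (U a) \ cl O (B a)).card : ℤ) ≤
      (cl O (U a \ B a) \ cl O (B a)).card := by
    intro a
    have : cl O (U a) \ cl O (B a) ⊆ cl O (U a \ B a) \ cl O (B a) := by
      intro y hy
      rw [mem_sdiff] at hy ⊢
      obtain ⟨s, hs, hys⟩ := mem_cl.1 hy.1
      refine ⟨mem_cl.2 ⟨s, mem_sdiff.2 ⟨hs, fun h => hy.2 (mem_cl.2 ⟨s, h, hys⟩)⟩, hys⟩, hy.2⟩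
    exact_mod_cast Finset.card_le_card this
  have h6 : ∀ a, ((cl O (ero O U a \ ero O B a) \ ero O (fun z => cl O (B z)) a).card : ℤ) ≤
      (ero O (fun a => cl O (U a)) a \ cl O (ero O B a)).card := by
    intro a
    have : cl O (ero O U a \ ero O B a) \ ero O (fun z => cl O (B z)) a ⊆
        ero O (fun a => cl O (U a)) a \ cl O (ero O B a) := by
      intro y hy
      rw [mem_sdiff] at hy ⊢
      obtain ⟨s, hs, hys⟩ := mem_cl.1 hy.1
      have hsU := (mem_sdiff.1 hs).1
      constructor
      · rw [mem_ero]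
        intro z hz
        exact mem_cl.2 ⟨s, (mem_ero.1 hsU) z hz, hys⟩
      · intro hc
        apply hy.2
        rw [mem_ero]
        intro z hz
        obtain ⟨s', hs', hys'⟩ := mem_cl.1 hc
        exact mem_cl.2 ⟨s', (mem_ero.1 hs') z hz, hys'⟩
    exact_mod_cast Finset.card_le_card this
  unfold cost
  rw [← Finset.sum_add_distrib, ← Finset.sum_add_distrib]
  have h7 : ∀ a, ((((cl O (ero O B a)).card : ℤ) - (ero O B a).card) +
      (((cl O (U a)).card : ℤ) - (ero O (fun a => cl O (U a)) a).card)) =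
      ((((cl O (B a)).card : ℤ) - (B a).card) + (((U a).card : ℤ) - (ero O U a).card)) +
      ((cl O (U a) \ cl O (B a)).card - (U a \ B a).card) -
      ((ero O (fun a => cl O (U a)) a \ cl O (ero O B a)).card -
        (ero O U a \ ero O B a).card) := by
    intro a
    have e1 := h1 a
    have e2 := h2 a
    have e3 := h3 a
    have e4 := h4 a
    linarith
  rw [Finset.sum_congr rfl fun a _ => h7 a, Finset.sum_sub_distrib, Finset.sum_add_distrib]
  have h8 : ∑ a, (((cl O (U a) \ cl O (B a)).card : ℤ) - (U a \ B a).card) ≤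
      ∑ z, (((cl O (U z \ B z) \ cl O (B z)).card : ℤ) - ((U z \ B z).card : ℤ)) :=
    Finset.sum_le_sum fun a _ => by linarith [h5 a]
  have h9 : ∑ a, (((cl O (ero O U a \ ero O B a) \ ero O (fun z => cl O (B z)) a).card : ℤ) -
      ((ero O U a \ ero O B a).card : ℤ)) ≤
      ∑ a, (((ero O (fun a => cl O (U a)) a \ cl O (ero O B a)).card : ℤ) -
        (ero O U a \ ero O B a).card) :=
    Finset.sum_le_sum fun a _ => by linarith [h6 a]
  linarith

end

/-- Columns of the complement. -/
def co (W : V → Finset V) (b : V) : Finset V := univ.filter fun y => b ∉ W y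

theorem co_ero (O : V → Finset V) (W : V → Finset V) (b : V) :
    co (ero O W) b = cl O (co W b) := by
  ext a
  simp only [co, mem_filter, mem_univ, true_and, mem_ero, mem_cl]
  push Not
  constructor
  · rintro ⟨z, h1, h2⟩
    exact ⟨z, h2, h1⟩
  · rintro ⟨z, h1, h2⟩
    exact ⟨z, h2, h1⟩

theorem sum_co (W : V → Finset V) :
    ∑ a, ((W a).card : ℤ) = ∑ b, ((Fintype.card V : ℤ) - (co W b).card) := by
  have h1 := sum_card_swap W
  have h2 : ∑ a, ((W a).card : ℤ) = ∑ x, ((univ.filter fun z => x ∈ W z).card : ℤ) := by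
    exact_mod_cast h1
  rw [h2]
  apply Finset.sum_congr rfl
  intro x _
  have := Finset.card_filter_add_card_filter_not (s := (univ : Finset V)) (fun z => x ∈ W z)
  rw [Finset.card_univ] at this
  simp only [co]
  omega

/-- There is no minimal counterexample. -/
theorem no_min_CE [Nonempty V] (O : V → Finset V) (h : CE O)
    (hmin : ∀ O' : V → Finset V, CE O' → (∀ v, O' v ⊆ O v) → ∀ v, O' v = O v) : False := by
  classical
  -- an optimal pair
  obtain ⟨p, hp, hpmin⟩ := Set.exists_min_image
    {p : (V → Finset V) × (V → Finset V) | Feas O p.1 p.2} (fun p => cost O p.1 p.2)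
    (Set.toFinite _) ⟨(fun a => insert a (O a), O), by
      refine ⟨?_, ?_, ?_⟩
      · intro a x hx
        rcases hx with rfl | hx
        · exact mem_insert_self _ _
        · exact mem_insert_of_mem hx
      · intro a b hb hab
        rcases hab with rfl | hab
        · exact h.irr _ hb
        · exact h.asy b a hb hab
      · intro a x hx hxa
        exact (mem_insert.1 hx).resolve_left hxa⟩
  obtain ⟨B, U⟩ := p
  have hF : Feas O B U := hp
  have hm : ∀ B' U', Feas O B' U' → cost O B U ≤ cost O B' U' := fun B' U' h' =>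
    hpmin (B', U') h'
  have hF2 := hF.shift
  have h1 := cost_shift hF hm
  have h2 := hm _ _ hF2
  -- strictness
  set X : V → Finset V := ero O B with hX
  set W : V → Finset V := fun a => cl O (U a) with hW
  have hne : ∃ a, cl O (X a) ≠ X a := by
    by_contra hcon
    push Not at hcon
    have hnx : ∀ v, ∃ u, u ∈ O v := by
      intro v
      have := h.big v
      have h3 : 0 < (O v).card := by omega
      exact Finset.card_pos.1 h3
    choose f hf using hnx
    obtain ⟨a0⟩ := ‹Nonempty V›
    obtain ⟨i, j, hij, heq⟩ := Finite.exists_ne_map_eq_of_infinite (fun n : ℕ => f^[n] a0)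
    wlog hlt : i < j generalizing i j
    · exact this j i hij.symm heq.symm (by omega)
    have heq' : f^[i] a0 = f^[j] a0 := heq
    set a := f^[i] a0 with ha
    have hk : f^[j - i] a = a := by
      rw [ha, ← Function.iterate_add_apply, Nat.sub_add_cancel hlt.le]
      exact heq'.symm
    have hall : ∀ m : ℕ, f^[m] a ∈ X a := by
      intro m
      induction m with
      | zero => exact hF.self_ero a
      | succ m ih =>
        rw [Function.iterate_succ_apply', ← hcon a]
        exact mem_cl.2 ⟨_, ih, Or.inr (hf _)⟩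
    obtain ⟨m, hm'⟩ : ∃ m, j - i = m + 1 := ⟨j - i - 1, by omega⟩
    rw [hm', Function.iterate_succ_apply'] at hk
    have hb := hall m
    have haO : a ∈ O (f^[m] a) := by
      have := hf (f^[m] a)
      rw [hk] at this
      exact this
    have hba : f^[m] a ≠ a := by
      intro he
      rw [he] at haO
      exact h.irr _ haO
    have hb2 : f^[m] a ∈ cl O (X a) := subset_cl _ _ hb
    exact hF2.rev a _ (hF2.sub a _ hb2 hba) (Or.inr haO)
  obtain ⟨a1, ha1⟩ := hne
  have hrow : ∑ a, (((cl O (cl O (X a))).card : ℤ) - (cl O (X a)).card) <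
      ∑ a, (((cl O (X a)).card : ℤ) - (X a).card) := by
    apply Finset.sum_lt_sum
    · intro a _
      have := cond_G' O h hmin (X a)
      have h3 : ((cl O (cl O (X a))).card : ℤ) + (X a).card ≤ 2 * (cl O (X a)).card := by
        exact_mod_cast this
      linarith
    · refine ⟨a1, mem_univ _, ?_⟩
      have := cond_G O h hmin (X a1) ha1
      have h3 : ((cl O (cl O (X a1))).card : ℤ) + (X a1).card < 2 * (cl O (X a1)).card := by
        exact_mod_cast this
      linarith
  have hcol : ∑ a, (((ero O W a).card : ℤ) - (ero O (ero O W) a).card) ≤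
      ∑ a, (((W a).card : ℤ) - (ero O W a).card) := by
    rw [Finset.sum_sub_distrib, Finset.sum_sub_distrib, sum_co W, sum_co (ero O W),
      sum_co (ero O (ero O W)), ← Finset.sum_sub_distrib, ← Finset.sum_sub_distrib]
    apply Finset.sum_le_sum
    intro b _
    simp only [co_ero]
    have := cond_G' O h hmin (co W b)
    have h3 : ((cl O (cl O (co W b))).card : ℤ) + (co W b).card ≤ 2 * (cl O (co W b)).card := by
      exact_mod_cast this
    linarith
  have h3 : cost O (fun a => cl O (X a)) (ero O W) < cost O X W := by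
    unfold cost
    linarith
  linarith

/-- **Seymour's second neighbourhood conjecture.** -/
theorem seymour {V : Type*} [Fintype V] [Nonempty V] (D : OGraph V) :
    ∃ v, (N1 D v).card ≤ (N2 D v).card := by
  classical
  by_contra hcon
  push Not at hcon
  have h0 : CE (N1 D) := by
    refine ⟨fun v hv => D.loopless v (mem_N1.1 hv), fun u v hu hv =>
      D.asymm v u (mem_N1.1 hu) (mem_N1.1 hv), ?_⟩
    intro v
    refine lt_of_le_of_lt (Finset.card_le_card ?_) (hcon v)
    intro x hx
    rw [mem_sdiff, mem_cl] at hx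
    obtain ⟨⟨s, hs, hxs⟩, hxn⟩ := hx
    rcases hxs with rfl | hxs
    · exact absurd hs hxn
    rw [mem_N1] at hs hxs hxn
    rw [mem_N2]
    refine ⟨?_, hxn, s, hs, hxs⟩
    rintro rfl
    exact D.asymm _ _ hs hxs
  obtain ⟨O, hO, hOmin⟩ := Set.exists_min_image {O : V → Finset V | CE O}
    (fun O => ∑ v, (O v).card) (Set.toFinite _) ⟨_, h0⟩
  refine no_min_CE O hO ?_
  intro O' hO' hsub v
  have h1 := hOmin O' hO'
  have h2 : ∀ u ∈ (univ : Finset V), (O' u).card ≤ (O u).card := fun u _ =>
    Finset.card_le_card (hsub u)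
  have h3 := (Finset.sum_eq_sum_iff_of_le h2).1 (le_antisymm (Finset.sum_le_sum h2) h1)
  exact Finset.eq_of_subset_of_card_le (hsub v) (h3 v (mem_univ v)).ge

end Vale.Agent.P038.H750
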