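import Vale.Agent.P038.H750.Base

/-!
# Feasible pairs of relations, and the Hall conditions of an optimal pair
-/

namespace Vale.Agent.P038.H750

open Finset

variable {V : Type*} [Fintype V] [DecidableEq V]

/-- Erosion in the first coordinate. -/
def ero (O : V → Finset V) (B : V → Finset V) (a : V) : Finset V :=
  univ.filter fun x => ∀ z, (a = z ∨ a ∈ O z) → x ∈ B z

theorem mem_ero {O : V → Finset V} {B : V → Finset V} {a x : V} :
    x ∈ ero O B a ↔ ∀ z, (a = z ∨ a ∈ O z) → x ∈ B z := by
  simp [ero]

/-- Feasible pairs of relations. -/
structure Feas (O : V → Finset V) (B U : V → Finset V) : Prop where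
  nb : ∀ a x, (x = a ∨ x ∈ O a) → x ∈ B a
  rev : ∀ a b, b ∈ U a → ¬ (a = b ∨ a ∈ O b)
  sub : ∀ a x, x ∈ B a → x ≠ a → x ∈ U a

/-- The cost of a pair. -/
def cost (O : V → Finset V) (B U : V → Finset V) : ℤ :=
  (∑ a, (((cl O (B a)).card : ℤ) - (B a).card)) + ∑ a, (((U a).card : ℤ) - (ero O U a).card)

/-- Hall condition in rows. -/
theorem rowHall {O : V → Finset V} {B U : V → Finset V} (hF : Feas O B U)
    (hmin : ∀ B' U', Feas O B' U' → cost O B U ≤ cost O B' U')
    (z : V) (S : Finset V) (hS : S ⊆ U z \ B z) :
    S.card ≤ (cl O S \ cl O (B z)).card := by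
  have hSB : Disjoint (B z) S := by
    rw [Finset.disjoint_left]
    intro x hx hx'
    exact (mem_sdiff.1 (hS hx')).2 hx
  have hF' : Feas O (Function.update B z (B z ∪ S)) U := by
    refine ⟨?_, hF.rev, ?_⟩
    · intro a x hx
      by_cases ha : a = z
      · subst ha
        rw [Function.update_self]
        exact mem_union_left _ (hF.nb _ _ hx)
      · rw [Function.update_of_ne ha]
        exact hF.nb _ _ hx
    · intro a x hx hxa
      by_cases ha : a = z
      · subst ha
        rw [Function.update_self, mem_union] at hx
        rcases hx with hx | hx
        · exact hF.sub _ _ hx hxa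
        · exact (mem_sdiff.1 (hS hx)).1
      · rw [Function.update_of_ne ha] at hx
        exact hF.sub _ _ hx hxa
  have h1 := hmin _ _ hF'
  unfold cost at h1
  have h2 : ∑ a, (((cl O (Function.update B z (B z ∪ S) a)).card : ℤ)
        - (Function.update B z (B z ∪ S) a).card) - ∑ a, (((cl O (B a)).card : ℤ) - (B a).card)
      = (((cl O (B z ∪ S)).card : ℤ) - (B z ∪ S).card) - (((cl O (B z)).card : ℤ) - (B z).card) := by
    rw [← Finset.sum_sub_distrib, Finset.sum_eq_single z]
    · rw [Function.update_self]
    · intro b _ hb
      rw [Function.update_of_ne hb]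
      ring
    · intro h; exact absurd (mem_univ z) h
  have h3 : (cl O (B z ∪ S)).card = (cl O (B z)).card + (cl O S \ cl O (B z)).card := by
    rw [cl_union, ← Finset.union_sdiff_self_eq_union,
      Finset.card_union_of_disjoint Finset.disjoint_sdiff]
  have h4 : (B z ∪ S).card = (B z).card + S.card := Finset.card_union_of_disjoint hSB
  rw [h3, h4] at h2
  push_cast at h2
  have : (S.card : ℤ) ≤ ((cl O S \ cl O (B z)).card : ℤ) := by linarith
  exact_mod_cast this

/-- Hall condition in columns. -/
theorem colHall {O : V → Finset V} {B U : V → Finset V} (hF : Feas O B U)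
    (hmin : ∀ B' U', Feas O B' U' → cost O B U ≤ cost O B' U')
    (x : V) (S : Finset V) (hS : ∀ z ∈ S, x ∈ U z ∧ x ∉ B z) :
    S.card ≤ ((cl O S).filter fun a => x ∈ ero O U a).card := by
  let U' : V → Finset V := fun z => if z ∈ S then (U z).erase x else U z
  have hF' : Feas O B U' := by
    refine ⟨hF.nb, ?_, ?_⟩
    · intro a b hb
      apply hF.rev
      by_cases ha : a ∈ S
      · have : b ∈ (U a).erase x := by simpa [U', ha] using hb
        exact mem_of_mem_erase this
      · simpa [U', ha] using hb
    · intro a y hy hya
      have h1 := hF.sub a y hy hya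
      by_cases ha : a ∈ S
      · have : y ∈ (U a).erase x := by
          rw [mem_erase]
          refine ⟨?_, h1⟩
          rintro rfl
          exact (hS a ha).2 hy
        simpa [U', ha] using this
      · simpa [U', ha] using h1
  have h1 := hmin _ _ hF'
  unfold cost at h1
  have h2 : ∑ a, ((U' a).card : ℤ) = ∑ a, ((U a).card : ℤ) - S.card := by
    have : ∀ a, ((U' a).card : ℤ) = ((U a).card : ℤ) - (if a ∈ S then 1 else 0) := by
      intro a
      by_cases ha : a ∈ S
      · have e : U' a = (U a).erase x := by simp [U', ha]
        rw [e, if_pos ha, Finset.card_erase_of_mem (hS a ha).1]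
        have : 0 < (U a).card := Finset.card_pos.2 ⟨x, (hS a ha).1⟩
        push_cast [Nat.cast_sub this]
        omega
      · have e : U' a = U a := by simp [U', ha]
        rw [e, if_neg ha]; ring
    rw [Finset.sum_congr rfl fun a _ => this a, Finset.sum_sub_distrib]
    congr 1
    rw [Finset.sum_ite_mem]
    simp
  have h3 : ∑ a, ((ero O U' a).card : ℤ) = ∑ a, ((ero O U a).card : ℤ)
      - ((cl O S).filter fun a => x ∈ ero O U a).card := by
    have : ∀ a, ((ero O U' a).card : ℤ) = ((ero O U a).card : ℤ)
        - (if a ∈ (cl O S).filter (fun a => x ∈ ero O U a) then 1 else 0) := by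
      intro a
      by_cases ha : a ∈ (cl O S).filter (fun a => x ∈ ero O U a)
      · rw [if_pos ha]
        rw [mem_filter, mem_cl] at ha
        obtain ⟨⟨s, hs, has⟩, hx⟩ := ha
        have e : ero O U' a = (ero O U a).erase x := by
          ext y
          rw [mem_erase, mem_ero, mem_ero]
          constructor
          · intro hy
            constructor
            · rintro rfl
              have := hy s has
              simp [U', hs] at this
            · intro z hz
              have := hy z hz
              by_cases hzS : z ∈ S
              · have h5 : y ∈ (U z).erase x := by simpa [U', hzS] using this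
                exact mem_of_mem_erase h5
              · simpa [U', hzS] using this
          · rintro ⟨hyx, hy⟩ z hz
            have := hy z hz
            by_cases hzS : z ∈ S
            · have h5 : y ∈ (U z).erase x := mem_erase.2 ⟨hyx, this⟩
              simpa [U', hzS] using h5
            · simpa [U', hzS] using this
        rw [e, Finset.card_erase_of_mem hx]
        have : 0 < (ero O U a).card := Finset.card_pos.2 ⟨x, hx⟩
        omega
      · rw [if_neg ha]
        have e : ero O U' a = ero O U a := by
          ext y
          rw [mem_ero, mem_ero]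
          constructor
          · intro hy z hz
            have := hy z hz
            by_cases hzS : z ∈ S
            · have h5 : y ∈ (U z).erase x := by simpa [U', hzS] using this
              exact mem_of_mem_erase h5
            · simpa [U', hzS] using this
          · intro hy z hz
            have := hy z hz
            by_cases hzS : z ∈ S
            · have h5 : y ∈ (U z).erase x := by
                refine mem_erase.2 ⟨?_, this⟩
                rintro rfl
                apply ha
                rw [mem_filter, mem_cl, mem_ero]
                exact ⟨⟨z, hzS, hz⟩, hy⟩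
              simpa [U', hzS] using h5
            · simpa [U', hzS] using this
        rw [e]; ring
    rw [Finset.sum_congr rfl fun a _ => this a, Finset.sum_sub_distrib]
    congr 1
    rw [Finset.sum_ite_mem]
    simp
  rw [Finset.sum_sub_distrib, Finset.sum_sub_distrib, Finset.sum_sub_distrib, h2, h3] at h1
  have : (S.card : ℤ) ≤ (((cl O S).filter fun a => x ∈ ero O U a).card : ℤ) := by linarith
  exact_mod_cast this

end Vale.Agent.P038.H750
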