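import Vale.Agent.P038.H750.Core

/-!
# Summation over the levels
-/

namespace Vale.Agent.P038.H750

open Finset

variable {V : Type*} [Fintype V] [DecidableEq V]

theorem sum_card_swap (f : V → Finset V) :
    ∑ z, (f z).card = ∑ x, (univ.filter fun z => x ∈ f z).card := by
  have h1 : ∀ z, (f z).card = ∑ x, if x ∈ f z then 1 else 0 := by
    intro z
    rw [Finset.sum_boole, Finset.filter_mem_eq_inter, Finset.univ_inter]
    simp
  have h2 : ∀ x, (univ.filter fun z => x ∈ f z).card = ∑ z, if x ∈ f z then 1 else 0 := by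
    intro x
    rw [Finset.card_filter]
  rw [Finset.sum_congr rfl fun z _ => h1 z, Finset.sum_congr rfl fun x _ => h2 x,
    Finset.sum_comm]

section

variable {O : V → Finset V} {B U : V → Finset V}

/-- The inequality of one level. -/
theorem level_sum (hF : Feas O B U)
    (hmin : ∀ B' U', Feas O B' U' → cost O B U ≤ cost O B' U') {M k : ℤ} (hk : 0 ≤ k)
    (s s' : V → Finset V) (hs : ∀ z, s z ⊆ U z \ B z)
    (hsmax : ∀ z, ∀ T' ⊆ U z \ B z, (s z).card < T'.card →
      k * ((cl O (s z) \ cl O (B z)).card : ℤ) - M * (s z).card <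
      k * ((cl O T' \ cl O (B z)).card : ℤ) - M * T'.card)
    (hs' : ∀ a, s' a ⊆ ero O U a \ ero O B a)
    (hsmin : ∀ a, ∀ S' ⊆ ero O U a \ ero O B a,
      k * ((cl O (s' a) \ ero O (fun z => cl O (B z)) a).card : ℤ) - M * (s' a).card ≤
      k * ((cl O S' \ ero O (fun z => cl O (B z)) a).card : ℤ) - M * S'.card) :
    ∑ z, (((cl O (U z \ B z) \ cl O (B z)).card : ℤ) - ((cl O (s z) \ cl O (B z)).card : ℤ)) ≤
    ∑ a, (((cl O (ero O U a \ ero O B a) \ ero O (fun z => cl O (B z)) a).card : ℤ) -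
      ((cl O (s' a) \ ero O (fun z => cl O (B z)) a).card : ℤ)) := by
  let D1 : V → Finset V := fun z =>
    (cl O (U z \ B z) \ cl O (B z)) \ (cl O (s z) \ cl O (B z))
  let D2 : V → Finset V := fun a =>
    (cl O (ero O U a \ ero O B a) \ ero O (fun z => cl O (B z)) a) \
      (cl O (s' a) \ ero O (fun z => cl O (B z)) a)
  have e1 : ∀ z, (((cl O (U z \ B z) \ cl O (B z)).card : ℤ) -
      ((cl O (s z) \ cl O (B z)).card : ℤ)) = ((D1 z).card : ℤ) := by
    intro z
    have hsub : cl O (s z) \ cl O (B z) ⊆ cl O (U z \ B z) \ cl O (B z) :=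
      Finset.sdiff_subset_sdiff (cl_mono (hs z)) (Finset.Subset.refl _)
    have h1 := Finset.card_sdiff_of_subset hsub
    have h2 := Finset.card_le_card hsub
    simp only [D1]
    omega
  have e2 : ∀ a, (((cl O (ero O U a \ ero O B a) \ ero O (fun z => cl O (B z)) a).card : ℤ) -
      ((cl O (s' a) \ ero O (fun z => cl O (B z)) a).card : ℤ)) = ((D2 a).card : ℤ) := by
    intro a
    have hsub : cl O (s' a) \ ero O (fun z => cl O (B z)) a ⊆
        cl O (ero O U a \ ero O B a) \ ero O (fun z => cl O (B z)) a :=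
      Finset.sdiff_subset_sdiff (cl_mono (hs' a)) (Finset.Subset.refl _)
    have h1 := Finset.card_sdiff_of_subset hsub
    have h2 := Finset.card_le_card hsub
    simp only [D2]
    omega
  rw [Finset.sum_congr rfl fun z _ => e1 z, Finset.sum_congr rfl fun a _ => e2 a]
  have main : ∑ z, (D1 z).card ≤ ∑ a, (D2 a).card := by
    rw [sum_card_swap D1, sum_card_swap D2]
    apply Finset.sum_le_sum
    intro x' _
    set T : Finset V := univ.filter fun z => x' ∈ D1 z with hT
    have hT' : ∀ z ∈ T, x' ∈ cl O (U z \ B z) \ cl O (B z) := by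
      intro z hz
      have := (mem_filter.1 hz).2
      exact (mem_sdiff.1 this).1
    refine (colHall2 hF hmin x' T.card T le_rfl hT').trans (Finset.card_le_card ?_)
    intro a ha
    rw [mem_filter] at ha
    obtain ⟨haT, hax⟩ := ha
    obtain ⟨z, hzT, haz⟩ := mem_cl.1 haT
    rw [mem_filter]
    refine ⟨mem_univ _, mem_sdiff.2 ⟨hax, ?_⟩⟩
    intro hc
    have hn := (mem_sdiff.1 (hT' z hzT)).2
    have hD := (mem_sdiff.1 (mem_filter.1 hzT).2).2
    exact hD (level_mono hk haz (hs' a) (hsmin a) (hs z) (hsmax z) hc hn)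
  exact_mod_cast main

/-- The summed inequality. -/
theorem shift_ineq (hF : Feas O B U)
    (hmin : ∀ B' U', Feas O B' U' → cost O B U ≤ cost O B' U') :
    ∑ z, (((cl O (U z \ B z) \ cl O (B z)).card : ℤ) - ((U z \ B z).card : ℤ)) ≤
    ∑ a, (((cl O (ero O U a \ ero O B a) \ ero O (fun z => cl O (B z)) a).card : ℤ) -
      ((ero O U a \ ero O B a).card : ℤ)) := by
  classical
  set n : ℕ := Fintype.card V with hn
  set M : ℕ := n * n + 1 with hM
  -- the level sets
  have hex1 : ∀ (k : ℕ) (z : V), ∃ S ⊆ U z \ B z,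
      (∀ S' ⊆ U z \ B z,
        (k : ℤ) * ((cl O S \ cl O (B z)).card : ℤ) - M * S.card ≤
        (k : ℤ) * ((cl O S' \ cl O (B z)).card : ℤ) - M * S'.card) ∧
      ∀ S' ⊆ U z \ B z, S.card < S'.card →
        (k : ℤ) * ((cl O S \ cl O (B z)).card : ℤ) - M * S.card <
        (k : ℤ) * ((cl O S' \ cl O (B z)).card : ℤ) - M * S'.card := fun k z =>
    exists_lex_min (U z \ B z)
      (fun S => (k : ℤ) * ((cl O S \ cl O (B z)).card : ℤ) - M * S.card)
  have hex2 : ∀ (k : ℕ) (a : V), ∃ S ⊆ ero O U a \ ero O B a,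
      (∀ S' ⊆ ero O U a \ ero O B a,
        (k : ℤ) * ((cl O S \ ero O (fun z => cl O (B z)) a).card : ℤ) - M * S.card ≤
        (k : ℤ) * ((cl O S' \ ero O (fun z => cl O (B z)) a).card : ℤ) - M * S'.card) ∧
      ∀ S' ⊆ ero O U a \ ero O B a, S.card < S'.card →
        (k : ℤ) * ((cl O S \ ero O (fun z => cl O (B z)) a).card : ℤ) - M * S.card <
        (k : ℤ) * ((cl O S' \ ero O (fun z => cl O (B z)) a).card : ℤ) - M * S'.card := fun k a =>
    exists_lex_min (ero O U a \ ero O B a)
      (fun S => (k : ℤ) * ((cl O S \ ero O (fun z => cl O (B z)) a).card : ℤ) - M * S.card)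
  choose s hs1 hs2 hs3 using hex1
  choose s' ht1 ht2 ht3 using hex2
  -- r and R
  let r : ℕ → V → ℤ := fun k z => ((cl O (s k z) \ cl O (B z)).card : ℤ)
  let R : ℕ → V → ℤ := fun k a =>
    ((cl O (s' k a) \ ero O (fun z => cl O (B z)) a).card : ℤ)
  have hlev : ∀ k : ℕ,
      ∑ z, (((cl O (U z \ B z) \ cl O (B z)).card : ℤ) - r k z) ≤
      ∑ a, (((cl O (ero O U a \ ero O B a) \ ero O (fun z => cl O (B z)) a).card : ℤ) - R k a) :=
    fun k => level_sum hF hmin (M := M) (k := (k : ℤ)) (by positivity) (s k) (s' k) (hs1 k)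
      (hs3 k) (ht1 k) (ht2 k)
  -- sums over the levels, row z
  have hsum1 : ∀ z, ∑ k ∈ range M, r (k + 1) z ≤ M * ((U z \ B z).card : ℤ) := by
    intro z
    let F : ℕ → ℤ := fun k => (k : ℤ) * r k z - M * (s k z).card
    have hstep : ∀ k : ℕ, r (k + 1) z ≤ F (k + 1) - F k := by
      intro k
      have h1 := hs2 k z (s (k + 1) z) (hs1 (k + 1) z)
      simp only [F, r]
      push_cast
      linarith
    have h2 : ∑ k ∈ range M, r (k + 1) z ≤ F M - F 0 := by
      rw [← Finset.sum_range_sub]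
      exact Finset.sum_le_sum fun k _ => hstep k
    have h3 : F M ≤ 0 := by
      have := hs2 M z ∅ (Finset.empty_subset _)
      simpa [F, r, cl_empty] using this
    have h4 : -(M * ((U z \ B z).card : ℤ)) ≤ F 0 := by
      have h5 := Finset.card_le_card (hs1 0 z)
      have h6 : ((s 0 z).card : ℤ) ≤ ((U z \ B z).card : ℤ) := by exact_mod_cast h5
      have hM0 : (0 : ℤ) ≤ M := by positivity
      have h7 := mul_le_mul_of_nonneg_left h6 hM0
      have h8 : F 0 = -(M * ((s 0 z).card : ℤ)) := by simp [F]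
      rw [h8]
      linarith
    linarith
  -- sums over the levels, row a
  have hsum2 : ∀ a, (M : ℤ) * ((ero O U a \ ero O B a).card : ℤ) ≤ ∑ k ∈ range M, R k a := by
    intro a
    let F : ℕ → ℤ := fun k => (k : ℤ) * R k a - M * (s' k a).card
    have hstep : ∀ k : ℕ, F (k + 1) - F k ≤ R k a := by
      intro k
      have h1 := ht2 (k + 1) a (s' k a) (ht1 k a)
      simp only [F, R]
      push_cast at h1 ⊢
      linarith
    have h2 : F M - F 0 ≤ ∑ k ∈ range M, R k a := by
      rw [← Finset.sum_range_sub]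
      exact Finset.sum_le_sum fun k _ => hstep k
    have h3 : 0 ≤ F M := by
      have h5 := rowHall2 hF hmin a _ (s' M a) le_rfl (ht1 M a)
      have h6 : ((s' M a).card : ℤ) ≤ R M a := by
        simp only [R]
        exact_mod_cast h5
      have hM0 : (0 : ℤ) ≤ M := by positivity
      have h7 := mul_le_mul_of_nonneg_left h6 hM0
      simp only [F]
      linarith
    have h4 : F 0 ≤ -(M * ((ero O U a \ ero O B a).card : ℤ)) := by
      have := ht2 0 a (ero O U a \ ero O B a) (Finset.Subset.refl _)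
      simp only [F, R]
      push_cast at this ⊢
      linarith
    linarith
  have hRle : ∀ k a, R k a ≤ n := by
    intro k a
    simp only [R, hn]
    exact_mod_cast Finset.card_le_univ _
  have hR0 : ∀ k a, 0 ≤ R k a := fun k a => by simp only [R]; positivity
  have hsum3 : ∀ a, (M : ℤ) * ((ero O U a \ ero O B a).card : ℤ) - n ≤
      ∑ k ∈ range M, R (k + 1) a := by
    intro a
    have h1 : ∑ k ∈ range (M + 1), R k a = ∑ k ∈ range M, R k a + R M a :=
      Finset.sum_range_succ _ _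
    have h2 : ∑ k ∈ range (M + 1), R k a = ∑ k ∈ range M, R (k + 1) a + R 0 a :=
      Finset.sum_range_succ' _ _
    have h3 := hsum2 a
    have h4 := hR0 M a
    have h5 := hRle 0 a
    linarith
  -- total
  set A1 : ℤ := ∑ z, ((cl O (U z \ B z) \ cl O (B z)).card : ℤ) with hA1
  set A2 : ℤ := ∑ a, ((cl O (ero O U a \ ero O B a) \ ero O (fun z => cl O (B z)) a).card : ℤ)
    with hA2
  set G1 : ℤ := ∑ z, ((U z \ B z).card : ℤ) with hG1
  set G2 : ℤ := ∑ a, ((ero O U a \ ero O B a).card : ℤ) with hG2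
  have h1 : ∑ k ∈ range M, (A1 - ∑ z, r (k + 1) z) ≤ ∑ k ∈ range M, (A2 - ∑ a, R (k + 1) a) := by
    apply Finset.sum_le_sum
    intro k _
    have := hlev (k + 1)
    rw [Finset.sum_sub_distrib, Finset.sum_sub_distrib] at this
    exact this
  rw [Finset.sum_sub_distrib, Finset.sum_sub_distrib, Finset.sum_const, Finset.sum_const,
    Finset.card_range, nsmul_eq_mul, nsmul_eq_mul, Finset.sum_comm, Finset.sum_comm (s := range M)]
    at h1
  have h2 : ∑ z, ∑ k ∈ range M, r (k + 1) z ≤ M * G1 := by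
    rw [hG1, Finset.mul_sum]
    exact Finset.sum_le_sum fun z _ => hsum1 z
  have h3 : (M : ℤ) * G2 - n * n ≤ ∑ a, ∑ k ∈ range M, R (k + 1) a := by
    have : ∑ a : V, ((M : ℤ) * ((ero O U a \ ero O B a).card : ℤ) - n) ≤
        ∑ a, ∑ k ∈ range M, R (k + 1) a := Finset.sum_le_sum fun a _ => hsum3 a
    rw [Finset.sum_sub_distrib, ← Finset.mul_sum, Finset.sum_const, Finset.card_univ,
      nsmul_eq_mul, ← hn] at this
    exact this
  rw [Finset.sum_sub_distrib, Finset.sum_sub_distrib]
  rw [← hA1, ← hA2, ← hG1, ← hG2]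
  -- M * ((A1 - G1) - (A2 - G2)) ≤ n * n < M
  have h4 : (M : ℤ) * ((A1 - G1) - (A2 - G2)) ≤ n * n := by linarith
  have h5 : (M : ℤ) = n * n + 1 := by rw [hM]; push_cast; ring
  by_contra hcon
  push Not at hcon
  have h6 : 1 ≤ (A1 - G1) - (A2 - G2) := by omega
  have h7 : (M : ℤ) * 1 ≤ (M : ℤ) * ((A1 - G1) - (A2 - G2)) :=
    mul_le_mul_of_nonneg_left h6 (by positivity)
  linarith

end

end Vale.Agent.P038.H750
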